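import Vale.Agent.P212.H268.Judge

namespace Vale.Agent.P212

/-- `X` and `Y` are coarsely equivalent: there are controlled maps `f : X → Y` and `g : Y → X`
such that `g ∘ f` and `f ∘ g` are at bounded distance from the identity maps. -/
def CoarselyEquivalent (X Y : Type) [MetricSpace X] [MetricSpace Y] : Prop :=
  ∃ (f : X → Y) (g : Y → X),
    (∀ R : ℝ, ∃ S : ℝ, ∀ x x', dist x x' ≤ R → dist (f x) (f x') ≤ S) ∧
    (∀ R : ℝ, ∃ S : ℝ, ∀ y y', dist y y' ≤ R → dist (g y) (g y') ≤ S) ∧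
    ∃ C : ℝ, (∀ x, dist (g (f x)) x ≤ C) ∧ ∀ y, dist (f (g y)) y ≤ C

end Vale.Agent.P212
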