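import Vale.Agent.P212.H35C.Sep
import Vale.Agent.P212.H268.J

/-! The main theorem: a continuum of spaces. -/

namespace Vale.Agent.P212.H35C

open Vale.Agent.P212 Vale.Agent.P212.H35 Vale.Agent.P212.H268

theorem main : ∃ (X : ℝ → Type) (_ : ∀ t, MetricSpace (X t)),
    (∀ t, BddGeometry (X t) ∧ UnifDiscrete (X t)) ∧
    (∀ s t, s ≠ t → ¬ CoarselyEquivalent (X s) (X t)) ∧
    ∀ t,
      (∃ (H A : Type) (_ : NormedAddCommGroup H) (_ : InnerProductSpace ℂ H)
        (_ : CompleteSpace H) (_ : NonUnitalCStarAlgebra A), Counterexample (X t) H A) ∧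
      (∃ (H A : Type) (_ : NormedAddCommGroup H) (_ : InnerProductSpace ℂ H)
        (_ : CompleteSpace H) (_ : NonUnitalCStarAlgebra A) (b : HilbertBasis (X t × ℕ) ℂ H)
        (i : (H →L[ℂ] H) → A) (p : X t × ℕ → X t →₀ ℚ),
        IsReducedRoe b i ∧ IsPlacement p ∧ ¬ RatInjective b i p) ∧
      ∀ (H A : Type) [NormedAddCommGroup H] [InnerProductSpace ℂ H] [CompleteSpace H]
        [NonUnitalCStarAlgebra A] (b : HilbertBasis (X t × ℕ) ℂ H) (i : (H →L[ℂ] H) → A)
        (p : X t × ℕ → X t →₀ ℚ),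
        IsMaxRoe b i ∨ IsReducedRoe b i ∨ IsRoeCompletion b i → IsPlacement p →
          ¬ RatInjective b i p ∧ IndepInKernel b i p ℝ := by
  obtain ⟨T, hT⟩ := exists_towers
  refine ⟨fun t => XT (T t), fun t => inferInstance, fun t => ⟨inferInstance, inferInstance⟩,
    hT, fun t => ?_⟩
  have key : ∀ (H A : Type) [NormedAddCommGroup H] [InnerProductSpace ℂ H] [CompleteSpace H]
      [NonUnitalCStarAlgebra A] (b : HilbertBasis (XT (T t) × ℕ) ℂ H) (i : (H →L[ℂ] H) → A)
      (p : XT (T t) × ℕ → XT (T t) →₀ ℚ),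
      IsMaxRoe b i ∨ IsReducedRoe b i ∨ IsRoeCompletion b i → IsPlacement p →
        ¬ RatInjective b i p ∧ IndepInKernel b i p ℝ := by
    intro H A _ _ _ _ b i p h hp
    have h' : IsRoeCompletion b i := by
      rcases h with h | h | h
      · exact isRoeCompletion_of_isMaxRoe h
      · exact isRoeCompletion_of_isReducedRoe h
      · exact h
    exact ⟨not_ratInjective (T t) b i p hp h'.1 h'.2.1 h'.2.2, indep_all (T t) b i p h' hp⟩
  refine ⟨⟨_, _, _, _, inferInstance, _,
    counterexample_of (T t) (fun r hr N hN => yL_not_torsion (T t) r hr N hN)⟩, ?_, key⟩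
  have hred : IsReducedRoe (stdB (XT (T t) × ℕ)) (redF (XT (T t))) := exists_reduced (XT (T t))
  exact ⟨_, _, _, _, inferInstance, _, stdB (XT (T t) × ℕ), redF (XT (T t)), pC, hred,
    isPlacement_pC, (key _ _ _ _ _ (Or.inr (Or.inl hred)) isPlacement_pC).1⟩

end Vale.Agent.P212.H35C
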