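import Vale.Agent.P212.Bdl.B2

set_option linter.all false

/-! The growth of the components is a coarse invariant. -/

namespace Vale.Agent.P212.H35C

open Vale.Agent.P212

variable {τ τ' : Tower}

instance : Subsingleton (τ.G 0) := by
  refine ⟨fun a b => ?_⟩
  induction a using QuotientGroup.induction_on with | H v =>
  induction b using QuotientGroup.induction_on with | H w =>
  refine QuotientGroup.eq.2 ?_
  rw [τ.top]
  trivial

instance (n : ℕ) : Subsingleton (τ.G (min 0 (2 * n))) := by
  rw [Nat.zero_min]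
  infer_instance

/-- A property which is stable under unit steps is constant on components. -/
theorem comp_induct {P : XT τ → Prop} (hP : ∀ x x', (Adj x x' ∨ Adj x' x) → P x → P x')
    {x x' : XT τ} (h : x.n = x'.n) (hx : P x) : P x' := by
  obtain ⟨n, l, w, y⟩ := x
  obtain ⟨n', l', w', y'⟩ := x'
  dsimp only at h
  subst h
  have down : ∀ (l : ℕ) (w : Torus n) (y : τ.G (min l (2 * n))), P ⟨n, l, w, y⟩ →
      ∃ y0 : τ.G (min 0 (2 * n)), P ⟨n, 0, w, y0⟩ := by
    intro l
    induction l with
    | zero => exact fun w y h => ⟨y, h⟩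
    | succ l ih => exact fun w y h => ih w _ (hP _ _ (Or.inl (Adj.down n l w y)) h)
  have stepx : ∀ (i : ℕ) (w : Torus n) (y0 y1 : τ.G (min 0 (2 * n))), P ⟨n, 0, w, y0⟩ →
      P ⟨n, 0, (w.1 + (i : ZMod (n + 1)), w.2), y1⟩ := by
    intro i
    induction i with
    | zero =>
      intro w y0 y1 h
      rw [Nat.cast_zero, add_zero, Subsingleton.elim y1 y0]
      exact h
    | succ i ih =>
      intro w y0 y1 h
      have h1 := hP _ _ (Or.inl (Adj.stepx n 0 _ _)) (ih w y0 y0 h)
      dsimp only at h1
      rw [Nat.cast_succ, ← add_assoc]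
      convert h1 using 2
      exact Subsingleton.elim _ _
  have stepy : ∀ (i : ℕ) (w : Torus n) (y0 y1 : τ.G (min 0 (2 * n))), P ⟨n, 0, w, y0⟩ →
      P ⟨n, 0, (w.1, w.2 + (i : ZMod (n + 1))), y1⟩ := by
    intro i
    induction i with
    | zero =>
      intro w y0 y1 h
      rw [Nat.cast_zero, add_zero, Subsingleton.elim y1 y0]
      exact h
    | succ i ih =>
      intro w y0 y1 h
      have h1 := hP _ _ (Or.inl (Adj.stepy n 0 _ _)) (ih w y0 y0 h)
      dsimp only at h1
      rw [Nat.cast_succ, ← add_assoc]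
      convert h1 using 2
      exact Subsingleton.elim _ _
  have up : ∀ (l : ℕ) (w : Torus n), (∀ y0 : τ.G (min 0 (2 * n)), P ⟨n, 0, w, y0⟩) →
      ∀ y : τ.G (min l (2 * n)), P ⟨n, l, w, y⟩ := by
    intro l w h
    induction l with
    | zero => exact h
    | succ l ih => exact fun y => hP _ _ (Or.inr (Adj.down n l w y)) (ih _)
  obtain ⟨y0, h0⟩ := down l w y hx
  refine up l' w' (fun y1 => ?_) y'
  have h1 := stepx (w'.1 - w.1).val w y0 y0 h0
  rw [ZMod.natCast_zmod_val, add_sub_cancel] at h1
  have h2 := stepy (w'.2 - w.2).val _ y0 y1 h1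
  dsimp only at h2
  rw [ZMod.natCast_zmod_val, add_sub_cancel] at h2
  exact h2

/-- The number of points of the n-th component at a high level. -/
noncomputable def siz (τ : Tower) (n : ℕ) : ℕ := (n + 1) ^ 2 * (τ.N (2 * n)).index

theorem siz_pos (τ : Tower) (n : ℕ) : 0 < siz τ n :=
  Nat.mul_pos (by positivity) (Nat.pos_of_ne_zero (τ.index_ne_zero _))

theorem index_mono (τ : Tower) {a b : ℕ} (h : a ≤ b) : (τ.N a).index ≤ (τ.N b).index := by
  have h1 : (τ.N b).relIndex (τ.N a) * (τ.N a).index = (τ.N b).index :=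
    Subgroup.relIndex_mul_index (τ.anti h)
  rcases Nat.eq_zero_or_pos ((τ.N b).relIndex (τ.N a)) with h2 | h2
  · rw [h2, zero_mul] at h1
    exact absurd h1.symm (τ.index_ne_zero b)
  · rw [← h1]
    exact Nat.le_mul_of_pos_left _ h2

theorem siz_mono (τ : Tower) : Monotone (siz τ) := by
  intro a b h
  exact Nat.mul_le_mul (Nat.pow_le_pow_left (by omega) 2) (index_mono τ (by omega))

/-- Points of high level. -/
def pt (τ : Tower) (n l : ℕ) (q : Torus n × τ.G (2 * n)) : XT τ :=
  ⟨n, l, q.1, τ.red (min_le_right l (2 * n)) q.2⟩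

theorem red_inj (τ : Tower) {m m' : ℕ} (h : m ≤ m') (h' : m' ≤ m) :
    Function.Injective (τ.red h) := by
  obtain rfl : m = m' := le_antisymm h h'
  intro a b hab
  induction a using QuotientGroup.induction_on with | H v =>
  induction b using QuotientGroup.induction_on with | H w =>
  exact hab

theorem pt_inj {n l l' : ℕ} (hl : 2 * n ≤ l) {q q' : Torus n × τ.G (2 * n)}
    (h : pt τ n l q = pt τ n l' q') : l = l' ∧ q = q' := by
  unfold pt at h
  rw [XT.mk.injEq] at h
  obtain ⟨-, rfl, h1, h2⟩ := h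
  refine ⟨rfl, Prod.ext (eq_of_heq h1) ?_⟩
  exact red_inj τ _ (le_min hl le_rfl) (eq_of_heq h2)

theorem exists_pt (x : XT τ) : ∃ q, x = pt τ x.n x.l q := by
  obtain ⟨n, l, w, y⟩ := x
  obtain ⟨z, hz⟩ := τ.red_surjective (min_le_right l (2 * n)) y
  exact ⟨(w, z), by unfold pt; rw [hz]⟩

theorem exists_pt_of {x : XT τ} {n : ℕ} (h : x.n = n) : ∃ q, x = pt τ n x.l q := by
  subst h
  exact exists_pt x

theorem card_fin (τ : Tower) (n R : ℕ) :
    Nat.card (Fin R × (Torus n × τ.G (2 * n))) = R * siz τ n := by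
  rw [Nat.card_prod, Nat.card_prod, Nat.card_prod, Nat.card_zmod, Nat.card_eq_fintype_card,
    Fintype.card_fin, siz, sq]
  rfl

/-- Coarse equivalences do not increase the growth of the components. -/
theorem growth (f : XT τ → XT τ') (g : XT τ' → XT τ) (S C : ℕ)
    (hg : ∀ y y', Adj y y' → Reach S (g y) (g y'))
    (hgf : ∀ x, Reach C (g (f x)) x) (hfg : ∀ y, dist (f (g y)) y ≤ C) :
    ∃ K c : ℕ, ∀ N, siz τ' N ≤ K * siz τ (N + c) := by
  classical
  have hg' : ∀ y y', (Adj y y' ∨ Adj y' y) → Reach S (g y) (g y') := by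
    intro y y' h
    rcases h with h | h
    · exact hg y y' h
    · exact (hg y' y h).symm
  obtain ⟨M, hM⟩ : ∃ M : ℕ, ∀ x : XT τ', (Metric.closedBall x (2 * (C : ℝ))).encard ≤ M :=
    (inferInstance : BddGeometry (XT τ')).1 (2 * (C : ℝ))
  have hmul : ∀ (s : Finset (XT τ')) (x : XT τ), (s.filter fun y => g y = x).card ≤ M := by
    intro s x
    rcases (s.filter fun y => g y = x).eq_empty_or_nonempty with h | ⟨y0, hy0⟩
    · rw [h]
      simp
    · have hsub : ((s.filter fun y => g y = x : Finset (XT τ')) : Set (XT τ')) ⊆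
          Metric.closedBall y0 (2 * (C : ℝ)) := by
        intro y hy
        have h1 : g y = x := (Finset.mem_filter.1 hy).2
        have h2 : g y0 = x := (Finset.mem_filter.1 hy0).2
        rw [Metric.mem_closedBall]
        have h3 := dist_triangle_left y y0 (f x)
        have h4 := hfg y
        have h5 := hfg y0
        rw [h1] at h4
        rw [h2] at h5
        linarith
      have h1 := (Set.encard_le_encard hsub).trans (hM y0)
      rw [Set.encard_coe_eq_coe_finsetCard] at h1
      exact_mod_cast h1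
  -- the component map
  set n1 := max S C + 1 with hn1
  let φ : ℕ → ℕ := fun n => (f ⟨n, 0, 0, 1⟩).n
  have hφ : ∀ n, n1 ≤ n → ∀ y : XT τ', y.n = φ n → (g y).n = n := by
    intro n hn y hy
    have h0 : (g (f ⟨n, 0, 0, 1⟩)).n = n := by
      rcases (hgf ⟨n, 0, 0, 1⟩).max_le with h | h
      · exact h
      · have h1 := (le_max_right (g (f ⟨n, 0, 0, 1⟩)).n n).trans h
        have h2 := le_max_right S C
        omega
    refine comp_induct (P := fun y => (g y).n = n) (x := f ⟨n, 0, 0, 1⟩) ?_ hy.symm h0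
    intro x x' hx hxn
    rcases (hg' x x' hx).max_le with h | h
    · rw [← h]
      exact hxn
    · have h1 := (le_max_left (g x).n (g x').n).trans h
      have h2 := le_max_left S C
      rw [hxn] at h1
      omega
  have hinj : ∀ n n', n1 ≤ n → n1 ≤ n' → φ n = φ n' → n = n' := by
    intro n n' hn hn' h
    rw [← hφ n hn (f ⟨n', 0, 0, 1⟩) h.symm, hφ n' hn' (f ⟨n', 0, 0, 1⟩) rfl]
  -- the levels
  have hlev : ∀ m, ∃ l0 : ℕ, ∀ (l : ℕ) (q : Torus m × τ'.G (2 * m)),
      (g (pt τ' m l q)).l ≤ l0 + S * l := by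
    intro m
    obtain ⟨l0, hl0⟩ := (Set.finite_range fun q => (g (pt τ' m 0 q)).l).bddAbove
    refine ⟨l0, fun l => ?_⟩
    induction l with
    | zero => exact fun q => by simpa using hl0 ⟨q, rfl⟩
    | succ l ih =>
      intro q
      have h1 := Adj.down m l q.1 (τ'.red (min_le_right (l + 1) (2 * m)) q.2)
      rw [Tower.red_red] at h1
      have h2 := (hg (pt τ' m (l + 1) q) (pt τ' m l q) h1).level
      have h3 := ih q
      rw [mul_add, mul_one]
      omega
  have hcount : ∀ n, n1 ≤ n → siz τ' (φ n) ≤ M * S * siz τ n := by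
    intro n hn
    obtain ⟨l0, hl0⟩ := hlev (φ n)
    set m := φ n with hm
    have key : ∀ R : ℕ, R * siz τ' m ≤ M * ((l0 + S * (2 * m + R) + 1) * siz τ n) := by
      intro R
      let F : Fin R × (Torus m × τ'.G (2 * m)) → XT τ' := fun q => pt τ' m (2 * m + q.1) q.2
      have hF : Function.Injective F := by
        rintro ⟨i, q⟩ ⟨i', q'⟩ h
        obtain ⟨h1, h2⟩ := pt_inj (Nat.le_add_right _ _) h
        refine Prod.ext (Fin.ext ?_) h2
        dsimp only at h1 ⊢
        omega
      let L := l0 + S * (2 * m + R) + 1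
      let F2 : Fin L × (Torus n × τ.G (2 * n)) → XT τ := fun q => pt τ n q.1 q.2
      haveI : Fintype (Fin R × (Torus m × τ'.G (2 * m))) := Fintype.ofFinite _
      haveI : Fintype (Fin L × (Torus n × τ.G (2 * n))) := Fintype.ofFinite _
      let s : Finset (XT τ') := Finset.univ.image F
      let t : Finset (XT τ) := Finset.univ.image F2
      have hs : s.card = R * siz τ' m := by
        rw [Finset.card_image_of_injective _ hF, Finset.card_univ, ← Nat.card_eq_fintype_card,
          card_fin]
      have ht : t.card ≤ L * siz τ n := by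
        refine Finset.card_image_le.trans ?_
        rw [Finset.card_univ, ← Nat.card_eq_fintype_card, card_fin]
      have hmaps : ∀ y ∈ s, g y ∈ t := by
        intro y hy
        obtain ⟨⟨i, q⟩, -, rfl⟩ := Finset.mem_image.1 hy
        have h1 : (g (F (i, q))).n = n := hφ n hn _ rfl
        have h2 : (g (F (i, q))).l < L := by
          have h3 := hl0 (2 * m + i) q
          have h4 : S * (2 * m + i) ≤ S * (2 * m + R) :=
            Nat.mul_le_mul_left _ (by have := i.2; omega)
          show (g (pt τ' m (2 * m + i) q)).l < l0 + S * (2 * m + R) + 1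
          omega
        obtain ⟨q2, hq2⟩ := exists_pt_of h1
        exact Finset.mem_image.2 ⟨(⟨_, h2⟩, q2), Finset.mem_univ _, hq2.symm⟩
      rw [← hs]
      refine (Finset.card_le_mul_card_image_of_maps_to hmaps M fun x _ => hmul s x).trans ?_
      exact Nat.mul_le_mul_left _ ht
    by_contra hlt
    push Not at hlt
    have h1 := key (M * ((l0 + S * (2 * m) + 1) * siz τ n) + 1)
    set R := M * ((l0 + S * (2 * m) + 1) * siz τ n) + 1 with hR
    have h2 : R * (M * S * siz τ n + 1) ≤ R * siz τ' m := Nat.mul_le_mul_left _ hlt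
    have h3 : M * ((l0 + S * (2 * m + R) + 1) * siz τ n) =
        M * ((l0 + S * (2 * m) + 1) * siz τ n) + R * (M * S * siz τ n) := by ring
    have h4 : R * (M * S * siz τ n + 1) = R * (M * S * siz τ n) + R := by ring
    omega
  refine ⟨M * S, n1, fun N => ?_⟩
  obtain ⟨i, hi, hiN⟩ : ∃ i, i ≤ N ∧ N ≤ φ (n1 + i) := by
    by_contra hcon
    push Not at hcon
    have h1 : ∀ i ∈ Finset.range (N + 1), φ (n1 + i) ∈ Finset.range N := by
      intro i hi
      rw [Finset.mem_range] at hi ⊢
      exact hcon i (by omega)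
    have h2 := Finset.card_le_card_of_injOn (fun i => φ (n1 + i)) h1 (by
      intro a _ b _ hab
      have := hinj _ _ (Nat.le_add_right n1 a) (Nat.le_add_right n1 b) hab
      omega)
    rw [Finset.card_range, Finset.card_range] at h2
    omega
  calc siz τ' N ≤ siz τ' (φ (n1 + i)) := siz_mono τ' hiN
    _ ≤ M * S * siz τ (n1 + i) := hcount _ (Nat.le_add_right _ _)
    _ ≤ M * S * siz τ (N + n1) := Nat.mul_le_mul_left _ (siz_mono τ (by omega))

end Vale.Agent.P212.H35C
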