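import Vale.Agent.P212.H35C.Tow
import Vale.Agent.P212.H35C.Growth
import Vale.Agent.P212.H35C.CJudge

set_option linter.all false

/-! A continuum of towers with different growth. -/

namespace Vale.Agent.P212.H35C

open Vale.Agent.P212

theorem ce_symm {X Y : Type} [MetricSpace X] [MetricSpace Y] (h : CoarselyEquivalent X Y) :
    CoarselyEquivalent Y X := by
  obtain ⟨f, g, hf, hg, C, h1, h2⟩ := h
  exact ⟨g, f, hg, hf, C, h2, h1⟩

theorem growth_of_ce {τ τ' : Tower} (h : CoarselyEquivalent (XT τ) (XT τ')) :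
    ∃ K c : ℕ, ∀ N, siz τ' N ≤ K * siz τ (N + c) := by
  obtain ⟨f, g, -, hg, C, hgf, hfg⟩ := h
  obtain ⟨S, hS⟩ := hg 1
  refine growth f g ⌈S⌉₊ ⌈C⌉₊ ?_ ?_ ?_
  · intro y y' h
    have h1 : dist y y' ≤ 1 := by
      have h2 := dist_le_iff_reach.2 (Reach.of_adj h)
      rwa [Nat.cast_one] at h2
    exact dist_le_iff_reach.1 ((hS y y' h1).trans (Nat.le_ceil S))
  · intro x
    exact dist_le_iff_reach.1 ((hgf x).trans (Nat.le_ceil C))
  · intro y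
    exact (hfg y).trans (Nat.le_ceil C)

theorem idx_two (ρ : F3 →* (TI.Mat)ˣ) (hρ : ∀ m, 1 ≤ m → TI.N ρ (m + 1) ≠ TI.N ρ m) {m : ℕ}
    (hm : 1 ≤ m) : 2 * (TI.N ρ m).index ≤ (TI.N ρ (m + 1)).index := by
  obtain ⟨C, hC⟩ := TI.step_N ρ
  have h1 : (TI.N ρ (m + 1)).relIndex (TI.N ρ m) * (TI.N ρ m).index = (TI.N ρ (m + 1)).index :=
    Subgroup.relIndex_mul_index (TI.anti_N ρ (Nat.le_succ m))
  have h2 := (hC m).1
  have h3 : (TI.N ρ (m + 1)).relIndex (TI.N ρ m) ≠ 1 := by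
    intro h
    rw [Subgroup.relIndex_eq_one] at h
    exact hρ m hm (le_antisymm (TI.anti_N ρ (Nat.le_succ m)) h)
  rw [← h1]
  exact Nat.mul_le_mul_right _ (by omega)

theorem idx_pow (ρ : F3 →* (TI.Mat)ˣ) (hρ : ∀ m, 1 ≤ m → TI.N ρ (m + 1) ≠ TI.N ρ m) {m : ℕ}
    (hm : 1 ≤ m) (d : ℕ) : 2 ^ d * (TI.N ρ m).index ≤ (TI.N ρ (m + d)).index := by
  induction d with
  | zero => rw [pow_zero, one_mul, Nat.add_zero]
  | succ d ih =>
    have h1 := idx_two ρ hρ (m := m + d) (by omega)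
    rw [← Nat.add_assoc]
    refine le_trans ?_ h1
    rw [pow_succ, mul_comm (2 ^ d) 2, mul_assoc]
    exact Nat.mul_le_mul_left _ ih

/-- The re-indexing functions. -/
noncomputable def kk (x : ℝ) (n : ℕ) : ℕ := 5 * n - 2 - ⌊x * (Nat.log 2 n : ℕ)⌋₊

theorem fl_succ {x : ℝ} (h0 : 0 ≤ x) (h1 : x ≤ 1) {a b : ℕ} (h : b ≤ a + 1) :
    ⌊x * (b : ℕ)⌋₊ ≤ ⌊x * (a : ℕ)⌋₊ + 1 := by
  rw [← Nat.floor_add_one (by positivity)]
  refine Nat.floor_le_floor ?_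
  have h2 : (b : ℝ) ≤ a + 1 := by exact_mod_cast h
  nlinarith

theorem fl_mono {x : ℝ} (h0 : 0 ≤ x) {a b : ℕ} (h : a ≤ b) :
    ⌊x * (a : ℕ)⌋₊ ≤ ⌊x * (b : ℕ)⌋₊ := by
  refine Nat.floor_le_floor ?_
  have h2 : (a : ℝ) ≤ b := by exact_mod_cast h
  exact mul_le_mul_of_nonneg_left h2 h0

theorem fl_le {x : ℝ} (h0 : 0 ≤ x) (h1 : x ≤ 1) (a : ℕ) : ⌊x * (a : ℕ)⌋₊ ≤ a := by
  refine Nat.floor_le_of_le ?_
  have : (0 : ℝ) ≤ a := by positivity
  nlinarith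

theorem log_le_of {a b : ℕ} (ha : 1 ≤ a) (h : b ≤ 2 * a) : Nat.log 2 b ≤ Nat.log 2 a + 1 := by
  have h1 := Nat.log_mono_right (b := 2) h
  rwa [mul_comm 2 a, Nat.log_mul_base (by norm_num) (by omega)] at h1

theorem adm_kk {x : ℝ} (h0 : 0 ≤ x) (h1 : x ≤ 1) : Adm (kk x) := by
  refine ⟨?_, ?_, ?_, ⟨5, ?_⟩, ?_, ?_⟩
  · unfold kk
    omega
  · intro n
    have h2 := fl_le h0 h1 (Nat.log 2 n)
    have h3 := Nat.log_le_self 2 n
    unfold kk
    omega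
  · refine monotone_nat_of_le_succ fun n => ?_
    unfold kk
    rcases Nat.eq_zero_or_pos n with rfl | hn
    · omega
    · have h2 := fl_succ h0 h1 (log_le_of hn (show n + 1 ≤ 2 * n by omega))
      omega
  · intro n
    have h2 := fl_mono h0 (Nat.log_mono_right (b := 2) (Nat.le_succ n))
    unfold kk
    simp only [Nat.succ_eq_add_one] at h2
    omega
  · intro j
    unfold kk
    rcases Nat.eq_zero_or_pos j with rfl | hj
    · omega
    · have h2 := fl_succ h0 h1 (log_le_of (show 1 ≤ 2 * j by omega) (show 3 * j ≤ 2 * (2 * j) by omega))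
      have h3 := fl_le h0 h1 (Nat.log 2 (2 * j))
      have h4 := Nat.log_le_self 2 (2 * j)
      omega
  · intro j
    unfold kk
    have h2 := fl_succ h0 h1 (log_le_of (show 1 ≤ 2 * j + 1 by omega)
      (show 3 * j + 2 ≤ 2 * (2 * j + 1) by omega))
    have h3 := fl_le h0 h1 (Nat.log 2 (2 * j + 1))
    have h4 := Nat.log_le_self 2 (2 * j + 1)
    omega

theorem exists_gap {x y : ℝ} (h0 : 0 ≤ x) (hxy : x < y) (h1 : y ≤ 1) (c D : ℕ) :
    ∃ N, 1 ≤ N ∧ kk y (N + c) + D ≤ kk x N := by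
  obtain ⟨p, hp⟩ := exists_nat_ge (((5 * c + D : ℕ) : ℝ) / (y - x))
  refine ⟨2 ^ p, Nat.one_le_two_pow, ?_⟩
  rw [div_le_iff₀ (by linarith)] at hp
  have h2 : ⌊x * (p : ℕ)⌋₊ + (5 * c + D) ≤ ⌊y * (p : ℕ)⌋₊ := by
    rw [← Nat.floor_add_natCast (by positivity)]
    refine Nat.floor_le_floor ?_
    nlinarith
  have h3 : ⌊y * (p : ℕ)⌋₊ ≤ ⌊y * (Nat.log 2 (2 ^ p + c) : ℕ)⌋₊ := by
    refine fl_mono (h0.trans hxy.le) ?_
    have := Nat.log_mono_right (b := 2) (Nat.le_add_right (2 ^ p) c)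
    rwa [Nat.log_pow (by norm_num)] at this
  have h4 := fl_le (h0.trans hxy.le) h1 p
  have h5 : p < 2 ^ p := Nat.lt_two_pow_self
  unfold kk
  rw [Nat.log_pow (by norm_num)]
  omega

theorem no_growth {ρ : F3 →* (TI.Mat)ˣ} (hρ : ∀ m, 1 ≤ m → TI.N ρ (m + 1) ≠ TI.N ρ m)
    {x y : ℝ} (h0 : 0 ≤ x) (hxy : x < y) (h1 : y ≤ 1) {τx τy : Tower}
    (hx : ∀ m, τx.N m = TI.N ρ (sg (kk x) m)) (hy : ∀ m, τy.N m = TI.N ρ (sg (kk y) m)) :
    ¬ ∃ K c : ℕ, ∀ N, siz τx N ≤ K * siz τy (N + c) := by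
  rintro ⟨K, c, h⟩
  obtain ⟨N, hN, hgap⟩ := exists_gap h0 hxy h1 c (K * (c + 1) ^ 2)
  have h2 := h N
  unfold siz at h2
  rw [hx, hy, sg_two, sg_two] at h2
  have h3 : 1 ≤ 2 * kk y (N + c) := by
    have := (adm_kk (h0.trans hxy.le) h1).le (N + c)
    omega
  have h4 := idx_pow ρ hρ h3 (K * (c + 1) ^ 2)
  have h5 : (TI.N ρ (2 * kk y (N + c) + K * (c + 1) ^ 2)).index ≤ (TI.N ρ (2 * kk x N)).index := by
    obtain ⟨d, hd⟩ := Nat.exists_eq_add_of_le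
      (show 2 * kk y (N + c) + K * (c + 1) ^ 2 ≤ 2 * kk x N by omega)
    rw [hd]
    have h6 := idx_pow ρ hρ (m := 2 * kk y (N + c) + K * (c + 1) ^ 2) (by omega) d
    refine le_trans ?_ h6
    exact Nat.le_mul_of_pos_left _ (by positivity)
  have h6 : 0 < (TI.N ρ (2 * kk y (N + c))).index := by
    have h7 := τy.index_ne_zero (2 * (N + c))
    rw [hy, sg_two] at h7
    omega
  set I := (TI.N ρ (2 * kk y (N + c))).index
  have h7 : (N + 1) ^ 2 * (2 ^ (K * (c + 1) ^ 2) * I) ≤ K * ((N + c + 1) ^ 2 * I) :=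
    (Nat.mul_le_mul_left _ (h4.trans h5)).trans h2
  have h8 : N + c + 1 ≤ (c + 1) * (N + 1) := by nlinarith
  have h9 : (N + c + 1) ^ 2 ≤ ((c + 1) * (N + 1)) ^ 2 := Nat.pow_le_pow_left h8 2
  have h10 : K * ((N + c + 1) ^ 2 * I) ≤ K * (((c + 1) * (N + 1)) ^ 2 * I) :=
    Nat.mul_le_mul_left _ (Nat.mul_le_mul_right _ h9)
  have h11 := h7.trans h10
  have h12 : ((N + 1) ^ 2 * I) * 2 ^ (K * (c + 1) ^ 2) ≤ ((N + 1) ^ 2 * I) * (K * (c + 1) ^ 2) := by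
    calc _ = (N + 1) ^ 2 * (2 ^ (K * (c + 1) ^ 2) * I) := by ring
      _ ≤ _ := h11
      _ = _ := by ring
  have h13 := Nat.le_of_mul_le_mul_left h12 (by positivity)
  have h14 : K * (c + 1) ^ 2 < 2 ^ (K * (c + 1) ^ 2) := Nat.lt_two_pow_self
  omega

/-- A continuum of towers such that the spaces are pairwise not coarsely equivalent. -/
theorem exists_towers : ∃ T : ℝ → Tower, ∀ s t, s ≠ t →
    ¬ CoarselyEquivalent (XT (T s)) (XT (T t)) := by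
  obtain ⟨ρ, hρ, hT⟩ := exists_tower_k
  let σ : ℝ → ℝ := fun t => (Real.arctan t + 2) / 4
  have hpi := Real.pi_lt_four
  have h0 : ∀ t, 0 ≤ σ t := by
    intro t
    have := Real.neg_pi_div_two_lt_arctan t
    show 0 ≤ (Real.arctan t + 2) / 4
    linarith
  have h1 : ∀ t, σ t ≤ 1 := by
    intro t
    have := Real.arctan_lt_pi_div_two t
    show (Real.arctan t + 2) / 4 ≤ 1
    linarith
  have hσ : StrictMono σ := by
    intro s t hst
    have := Real.arctan_strictMono hst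
    show (Real.arctan s + 2) / 4 < (Real.arctan t + 2) / 4
    linarith
  have hT' : ∀ t : ℝ, ∃ τ : Tower, ∀ m, τ.N m = TI.N ρ (sg (kk (σ t)) m) :=
    fun t => hT _ (adm_kk (h0 t) (h1 t))
  choose T hT'' using hT'
  have key : ∀ s t, s < t → ¬ CoarselyEquivalent (XT (T t)) (XT (T s)) := by
    intro s t hst h
    exact no_growth hρ (h0 s) (hσ hst) (h1 t) (hT'' s) (hT'' t) (growth_of_ce h)
  refine ⟨T, fun s t hst => ?_⟩
  rcases lt_or_gt_of_ne hst with h | h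
  · exact fun h2 => key s t h (ce_symm h2)
  · exact key t s h

end Vale.Agent.P212.H35C
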