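import Vale.Agent.P212.Bdl.B2

set_option linter.all false

/-! Towers obtained by re-indexing the congruence tower. -/

namespace Vale.Agent.P212.H35C

open Vale.Agent.P212

/-- Admissible re-indexing functions. -/
structure Adm (k : ℕ → ℕ) : Prop where
  zero : k 0 = 0
  le : ∀ n, n ≤ k n
  mono : Monotone k
  step : ∃ D, ∀ n, k (n + 1) ≤ k n + D
  even : ∀ j, 3 * k (2 * j) ≤ 2 * k (3 * j)
  odd : ∀ j, 3 * k (2 * j + 1) ≤ 2 * k (3 * j + 2)

/-- The levels. -/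
def sg (k : ℕ → ℕ) (m : ℕ) : ℕ := 2 * k ((m + 1) / 2)

theorem sg_two (k : ℕ → ℕ) (n : ℕ) : sg k (2 * n) = 2 * k n := by
  unfold sg
  congr 2
  omega

theorem Adm.sg_mono {k : ℕ → ℕ} (h : Adm k) : Monotone (sg k) := by
  intro a b hab
  unfold sg
  exact Nat.mul_le_mul_left _ (h.mono (Nat.div_le_div_right (by omega)))

theorem Adm.sg_three {k : ℕ → ℕ} (h : Adm k) (n : ℕ) : 3 * k n ≤ sg k (3 * n) := by
  unfold sg
  rcases Nat.even_or_odd' n with ⟨j, rfl | rfl⟩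
  · have e : (3 * (2 * j) + 1) / 2 = 3 * j := by omega
    rw [e]
    exact h.even j
  · have e : (3 * (2 * j + 1) + 1) / 2 = 3 * j + 2 := by omega
    rw [e]
    exact h.odd j

theorem relIndex_steps (ρ : F3 →* (TI.Mat)ˣ) {C : ℕ}
    (hC : ∀ m, (TI.N ρ (m + 1)).relIndex (TI.N ρ m) ≠ 0 ∧
      (TI.N ρ (m + 1)).relIndex (TI.N ρ m) ≤ C) (m d : ℕ) :
    (TI.N ρ (m + d)).relIndex (TI.N ρ m) ≠ 0 ∧
      (TI.N ρ (m + d)).relIndex (TI.N ρ m) ≤ C ^ d := by
  induction d with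
  | zero =>
    rw [Nat.add_zero, Subgroup.relIndex_self, pow_zero]
    exact ⟨one_ne_zero, le_rfl⟩
  | succ d ih =>
    have h1 : (TI.N ρ (m + (d + 1))).relIndex (TI.N ρ (m + d)) *
        (TI.N ρ (m + d)).relIndex (TI.N ρ m) = (TI.N ρ (m + (d + 1))).relIndex (TI.N ρ m) :=
      Subgroup.relIndex_mul_relIndex _ _ _ (TI.anti_N ρ (by omega)) (TI.anti_N ρ (by omega))
    have h2 := hC (m + d)
    rw [← h1]
    refine ⟨mul_ne_zero h2.1 ih.1, ?_⟩
    rw [pow_succ, mul_comm (C ^ d)]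
    exact Nat.mul_le_mul h2.2 ih.2

theorem short_all (ρ : F3 →* (TI.Mat)ˣ) (R : ℕ) : ∃ n₁ : ℕ, ∀ n ≥ n₁, ∀ v : F3,
    v.toWord.length ≤ R → v ∈ TI.N ρ (2 * n) → ∀ m, v ∈ TI.N ρ m := by
  have h : ∀ v : F3, ∃ m : ℕ, TI.dv m ((ρ v : TI.Mat) - 1) → (ρ v : TI.Mat) - 1 = 0 := by
    intro v
    by_contra hne
    push Not at hne
    exact (hne 0).2 (TI.eq_zero_of_dv fun m => (hne m).1)
  choose m hm using h
  obtain ⟨n₁, hn₁⟩ := ((TI.finite_short R).image m).bddAbove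
  refine ⟨n₁, fun n hn v hv hvN j => ?_⟩
  have h1 : m v ≤ 2 * n := by
    have : m v ≤ n₁ := hn₁ ⟨v, hv, rfl⟩
    omega
  have h2 := hm v (TI.dv_mono h1 hvN)
  rw [TI.mem_N, h2]
  exact TI.dv_zero _

/-- The tower of an admissible function. -/
theorem exists_tower_k : ∃ ρ : F3 →* (TI.Mat)ˣ,
    (∀ m, 1 ≤ m → TI.N ρ (m + 1) ≠ TI.N ρ m) ∧
    ∀ k : ℕ → ℕ, Adm k → ∃ τ : Tower, ∀ m, τ.N m = TI.N ρ (sg k m) := by
  obtain ⟨ρ, hcube, hrel, v, A, hv, hA⟩ := exists_rho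
  let g : ℕ → Fin 2 → F3 := fun n k => (v k) ^ (11 ^ (n - 1))
  have hlev : ∀ n, 1 ≤ n → ∃ A' : Fin 2 → TI.Mat,
      (∀ k, (ρ (g n k) : TI.Mat) = 1 + ((11 : ℤ_[11]) ^ n) • A' k) ∧
      ∀ k, TI.dv 1 (A' k - A k) := by
    intro n hn
    have h1 : ∀ k, ∃ A' : TI.Mat, (ρ (g n k) : TI.Mat) = 1 + ((11 : ℤ_[11]) ^ n) • A' ∧
        TI.dv 1 (A' - A k) := by
      intro k
      obtain ⟨A', h2, h3⟩ := TI.exists_level ρ (hv k) (n - 1)
      rw [Nat.sub_add_cancel hn] at h2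
      exact ⟨A', h2, h3⟩
    choose A' h2 h3 using h1
    exact ⟨A', h2, h3⟩
  have ht : ∀ n, ∃ t : ℤ → ℤ → F3 → ZMod (11 ^ n),
      (∀ (i j i' j' : ℤ) (v v' : F3), (g n 0 ^ i * g n 1 ^ j)⁻¹ * v ∈ TI.N ρ (2 * n) →
        (g n 0 ^ i' * g n 1 ^ j')⁻¹ * v' ∈ TI.N ρ (2 * n) →
        t (i + i') (j + j') (v * v') = t i j v + t i' j' v' + ((i * j' : ℤ) : ZMod (11 ^ n))) ∧
      ∀ v : F3, v ∈ TI.N ρ (3 * n) → t 0 0 v = 0 := by
    intro n
    rcases Nat.eq_zero_or_pos n with rfl | hn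
    · have : Subsingleton (ZMod (11 ^ 0)) := by
        rw [pow_zero]
        infer_instance
      exact ⟨fun _ _ _ => 0, fun _ _ _ _ _ _ _ _ => Subsingleton.elim _ _,
        fun _ _ => Subsingleton.elim _ _⟩
    · obtain ⟨A', h1, h2⟩ := hlev n hn
      refine TI.exists_t n h1 ?_
      intro hd
      apply hA
      obtain ⟨B0, hB0⟩ := h2 0
      obtain ⟨B1, hB1⟩ := h2 1
      rw [sub_eq_iff_eq_add] at hB0 hB1
      have h3 : A' 0 * A' 1 - A' 1 * A' 0 = (A 0 * A 1 - A 1 * A 0) + (11 : ℤ_[11]) •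
          (B0 * A' 1 + A 0 * B1 - B1 * A' 0 - A 1 * B0) := by
        rw [hB0, hB1]
        simp only [mul_add, add_mul, smul_mul_assoc, mul_smul_comm, smul_add, smul_sub, smul_smul,
          pow_one]
        module
      rw [h3, Matrix.add_apply, Matrix.smul_apply, smul_eq_mul] at hd
      exact (dvd_add_left (dvd_mul_right _ _)).1 hd
  choose t ht1 ht2 using ht
  have hcomm : ∀ n, (g n 1 * g n 0)⁻¹ * (g n 0 * g n 1) ∈ TI.N ρ (2 * n) := by
    intro n
    rcases Nat.eq_zero_or_pos n with rfl | hn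
    · exact TI.dv_top _
    · obtain ⟨A', h1, -⟩ := hlev n hn
      rw [TI.inv_mul_mem_N, map_mul, map_mul, Units.val_mul, Units.val_mul, h1 0, h1 1]
      refine ⟨A' 0 * A' 1 - A' 1 * A' 0, ?_⟩
      rw [two_mul, pow_add]
      simp only [mul_add, add_mul, mul_one, one_mul, smul_mul_assoc, mul_smul_comm, smul_add,
        smul_sub, smul_smul]
      module
  refine ⟨ρ, ?_, ?_⟩
  · intro m hm heq
    obtain ⟨A', h1, h2⟩ := hlev m hm
    have hmem : ∀ k, TI.dv 1 (A k) := by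
      intro k
      have h3 : g m k ∈ TI.N ρ m := by
        rw [TI.mem_N, h1 k]
        exact ⟨A' k, by rw [add_sub_cancel_left]⟩
      rw [← heq, TI.mem_N, h1 k, add_sub_cancel_left] at h3
      obtain ⟨B, hB⟩ := h3
      rw [pow_succ, mul_smul] at hB
      have h4 : A' k = (11 : ℤ_[11]) • B := TI.smul_left_cancel hB
      have h5 : TI.dv 1 (A' k) := ⟨B, by rw [h4, pow_one]⟩
      have h6 := TI.dv_add h5 (TI.dv_neg (h2 k))
      have h7 : A' k + -(A' k - A k) = A k := by abel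
      rwa [h7] at h6
    apply hA
    obtain ⟨B0, hB0⟩ := hmem 0
    rw [hB0, pow_one, Matrix.smul_mul, Matrix.mul_smul, ← smul_sub, Matrix.smul_apply, smul_eq_mul]
    exact dvd_mul_right _ _
  · intro k hk
    have hdvd : ∀ n, 11 ^ n ∣ 11 ^ (k n) := fun n => pow_dvd_pow 11 (hk.le n)
    refine ⟨{
      N := fun m => TI.N ρ (sg k m)
      normal := fun m => TI.normal_N ρ _
      anti := fun a b hab => TI.anti_N ρ (hk.sg_mono hab)
      top := ?_
      step := ?_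
      cube := ?_
      rel := ?_
      g := fun n => g (k n)
      comm := ?_
      short := ?_
      t := fun n i j w => ZMod.castHom (hdvd n) (ZMod (11 ^ n)) (t (k n) i j w)
      t_mul := ?_
      t_N := ?_ }, fun m => rfl⟩
    · have h0 : sg k 0 = 0 := by
        unfold sg
        rw [show (0 + 1) / 2 = 0 from rfl, hk.zero]
      rw [h0]
      exact TI.top_N ρ
    · obtain ⟨C, hC⟩ := TI.step_N ρ
      obtain ⟨D, hD⟩ := hk.step
      have hC1 : 1 ≤ C := by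
        have h := hC 0
        omega
      refine ⟨C ^ (2 * D), fun m => ?_⟩
      have hle : sg k m ≤ sg k (m + 1) := hk.sg_mono (Nat.le_succ m)
      obtain ⟨d, hd⟩ := Nat.exists_eq_add_of_le hle
      have hd2 : d ≤ 2 * D := by
        have h1 : (m + 1 + 1) / 2 ≤ (m + 1) / 2 + 1 := by omega
        have h2 : k ((m + 1 + 1) / 2) ≤ k ((m + 1) / 2) + D :=
          (hk.mono h1).trans (hD _)
        unfold sg at hd
        omega
      have h3 := relIndex_steps ρ hC (sg k m) d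
      rw [← hd] at h3
      exact ⟨h3.1, h3.2.trans (Nat.pow_le_pow_right hC1 hd2)⟩
    · intro m i
      show gen i ^ 3 ∈ TI.N ρ (sg k m)
      rw [TI.mem_N, map_pow, hcube i, Units.val_one, sub_self]
      exact TI.dv_zero _
    · intro m i
      show _ ∈ TI.N ρ (sg k m)
      rw [TI.inv_mul_mem_N]
      have h1 : ρ (gen i * gen (i + 1)) = ρ (gen (i + 1) * gen i * gen (i + 1) * gen i) := by
        rw [map_mul, hrel i, map_mul, map_mul, map_mul]
      rw [h1, sub_self]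
      exact TI.dv_zero _
    · intro n
      show _ ∈ TI.N ρ (sg k (2 * n))
      rw [sg_two]
      exact hcomm (k n)
    · intro R
      obtain ⟨n₁, hn₁⟩ := short_all ρ R
      refine ⟨n₁, fun n hn w hw hwN => ?_⟩
      have hwN' : w ∈ TI.N ρ (sg k (2 * n)) := hwN
      show w ∈ TI.N ρ (sg k (3 * n))
      have h1 : 2 * n ≤ sg k (2 * n) := by
        rw [sg_two]
        have := hk.le n
        omega
      exact hn₁ n hn w hw (TI.anti_N ρ h1 hwN') _
    · intro n i j i' j' w w' hw hw'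
      have hw1 : (g (k n) 0 ^ i * g (k n) 1 ^ j)⁻¹ * w ∈ TI.N ρ (2 * k n) := by
        rw [← sg_two]
        exact hw
      have hw1' : (g (k n) 0 ^ i' * g (k n) 1 ^ j')⁻¹ * w' ∈ TI.N ρ (2 * k n) := by
        rw [← sg_two]
        exact hw'
      have h := ht1 (k n) i j i' j' w w' hw1 hw1'
      show ZMod.castHom (hdvd n) (ZMod (11 ^ n)) (t (k n) (i + i') (j + j') (w * w')) = _
      rw [h, map_add, map_add, map_intCast]
    · intro n w hw
      show ZMod.castHom (hdvd n) (ZMod (11 ^ n)) (t (k n) 0 0 w) = 0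
      rw [ht2 (k n) w (TI.anti_N ρ (hk.sg_three n) hw), map_zero]

end Vale.Agent.P212.H35C
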